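import Vale.Agent.P241GQ.Fr

/-!
# P241G, row P2: restriction to the fixed points
-/

open CategoryTheory MonoidalCategory Limits OnePoint Matrix Topology Filter

noncomputable section

namespace Vale.Agent.P241GQ

open P251.G P251.G.LC P251.H P251.St P251CX P241.St P241GX P241GA P241GA.GIn P241GR P241GP
open P251.H.GS.StabInput
open P241Z (IsDeg reg)
open P241.Geo (xt)

universe u

theorem cont_map {A B : Type} [TopologicalSpace A] [TopologicalSpace B] [T2Space A] [T2Space B]
    [LocallyCompactSpace B] {f : A → B} (h : IsProperMap f) : Continuous (OnePoint.map f) :=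
  OnePoint.continuous_map h.continuous (by
    simpa only [coclosedCompact_eq_cocompact] using (isProperMap_iff_tendsto_cocompact.1 h).2)

variable {G : Type} [Group G] [Finite G] {H : Subgroup G} {a N J j : ℕ} {K : GSpace G}

/-- a Euclidean space of `H`-fixed points which is a retract -/
structure Ch (H : Subgroup G) (K : GSpace G) (J : ℕ) where
  /-- the inclusion -/
  c : (Fin J → ℝ) → K.carrier
  /-- the retraction -/
  b : K.carrier → Fin J → ℝ
  cc : Continuous c
  cb : Continuous b
  bc : ∀ y, b (c y) = y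
  fix : ∀ (g : H) y, (g : G) • c y = c y

/-- the map of compactifications -/
def Ch.o (c : Ch H K J) : (Rn J).Pt → K.und.Pt := OnePoint.map c.c

omit [Finite G] in
theorem Ch.cont (c : Ch H K J) : Continuous c.o :=
  cont_map (Function.LeftInverse.isClosedEmbedding c.bc c.cb c.cc).isProperMap

/-- one more copy of `ρ` -/
def Ch.succ (c : Ch H K J) (D : Dec H) : Ch H ((reg G).prod K) (J + D.r) where
  c y := (fun g => y (es J D.r (.inl (D.e.symm g).1)), c.c fun i => y (es J D.r (.inr i)))
  b x i := Sum.elim (fun i => x.1 (D.e (i, 1))) (c.b x.2) ((es J D.r).symm i)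
  cc := (continuous_pi fun _ => continuous_apply _).prodMk
    (c.cc.comp (continuous_pi fun _ => continuous_apply _))
  cb := continuous_pi fun i => by
    rcases (es J D.r).symm i with i | i
    · exact (continuous_apply (D.e (i, 1))).comp continuous_fst
    · exact (continuous_apply i).comp (c.cb.comp continuous_snd)
  bc y := funext fun i => by
    obtain ⟨i | i, rfl⟩ := (es J D.r).surjective i <;> simp [c.bc]
  fix g y := Prod.ext (funext fun k => congrArg (fun i => y (es J D.r (.inl i)))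
    (D.symm_mul g⁻¹ k)) (c.fix g _)

variable (H j) in
/-- the test space -/
abbrev K0 : GSpace G := xt (cell G H j) Rr

variable (H j) in
/-- the fibre over the base point of `G / H` -/
def c0 : Ch H (K0 H j) (j + 1) where
  c y := ((((1 : G) : G ⧸ H), fun i => y i.succ), y 0)
  b x := vecCons x.2 x.1.2
  cc := letI : TopologicalSpace (G ⧸ H) := ⊥
    (continuous_const.prodMk (continuous_pi fun _ => continuous_apply _)).prodMk
      (continuous_apply 0)
  cb := letI : TopologicalSpace (G ⧸ H) := ⊥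
    (consH j).continuous.comp (continuous_snd.prodMk (continuous_snd.comp continuous_fst))
  bc y := Fin.cons_self_tail y
  fix g _ := Prod.ext (Prod.ext (QuotientGroup.eq.2 (by simp)) rfl) rfl

theorem cont_b0 : Continuous (OnePoint.map (c0 H j).b) := by
  letI : TopologicalSpace (G ⧸ H) := ⊥
  exact cont_map (A := (K0 H j).carrier) ((consH j).isProperMap.comp
    ((Homeomorph.prodComm _ _).isProperMap.comp
      ((isProperMap_snd_of_compactSpace (X := G ⧸ H)).prodMap isProperMap_id)))

omit [Finite G] in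
theorem lc0 : IsLocallyConstant fun x : (K0 H j).carrier => x.1.1 := by
  letI : TopologicalSpace (G ⧸ H) := ⊥
  haveI : DiscreteTopology (G ⧸ H) := ⟨rfl⟩
  exact (IsLocallyConstant.iff_continuous _).2 (continuous_fst.comp continuous_fst)

/-- the map `d` in the first coordinate -/
def dg (j : ℕ) (d : Map Rr Rr) : Map (Rn (j + 1)) (Rn (j + 1)) where
  toFun y := y.elim ∞ fun y => sq j (d.toFun (.some (y 0)), .some fun i => y i.succ)
  cont := (quot_sq j).continuous_iff.2 (((cont_sq j).comp
    ((d.cont.comp continuous_fst).prodMk continuous_snd)).congr (by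
      rintro ⟨t, y⟩
      induction t using OnePoint.rec with
      | infty => exact congrArg (fun z => sq j (z, y)) d.map_infty
      | coe t =>
        induction y using OnePoint.rec with
        | infty => exact congrArg (consH j).onePointCongr (smash_infty_right _)
        | coe y => rfl))
  map_infty := rfl

theorem dg_dg {m : ℕ} {d : Map Rr Rr} (h : IsDeg m d) : Dg m (dg j d) :=
  ⟨j, d, (Homeomorph.prodComm _ _).trans (consH j), h, fun y t => by
    change sq j (d.toFun (.some t), .some y) = _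
    induction d.toFun (.some t) using OnePoint.rec <;> rfl⟩

/-- precomposition -/
def pre {X : OSp} (u : Pm (Rn J) X N) (D : Map (Rn J) (Rn J)) : Pm (Rn J) X N :=
  ⟨fun y => u.fn (D.toFun y), u.cont.comp D.cont, (congrArg u.fn D.map_infty).trans u.based⟩

omit [Finite G] in
theorem app_gwl (d : Map Rr Rr) (y) : app (gwl (cell G H j) (toHom d)).hom ((c0 H j).o y) =
    (c0 H j).o ((dg j d).toFun y) := by
  induction y using OnePoint.rec with
  | infty => exact app_infty _
  | coe y =>
    have h := app_whiskerLeft_smash (P241.Geo.L (cell G H j)) (toHom d)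
      (.some (((1 : G) : G ⧸ H), fun i => y i.succ)) (.some (y 0))
    have e : ∀ z : Rr.Pt, app (P241.Geo.pt (cell G H j) Rr).hom
        (LC.smash (.some (((1 : G) : G ⧸ H), fun i => y i.succ)) z) =
        (c0 H j).o (sq j (z, .some fun i => y i.succ)) := fun z => by
      induction z using OnePoint.rec <;> rfl
    exact (congrArg (app (P241.Geo.pt (cell G H j) Rr).hom) h).trans (e _)

variable {M : Type u} [Category.{0} M] [MonoidalCategory M] [SymmetricCategory M]
  [MonoidalClosed M] [HasZeroMorphisms M] [HasColimitsOfSize.{0, 0} M] [GIn G M]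
  {o : M ⥤ Action OSp G} (D : Dict o) (P : PhiF H) (φ : Fr H a N) (c : Ch H K J) {X Y : M}

/-- `u` is the restriction of `z` to the fixed points -/
def R (z : (TF M a).obj (gl K) ⟶ X) (u : Pm (Rn J) (P.Φ.obj (o.obj X)) N) : Prop :=
  φ.Res (o.obj X) P (fun y => (D.el z).fn (c.o y)) u

theorem fx_el (z : (TF M a).obj (gl K) ⟶ X) (y : K.und.Pt) (h : ∀ g : H, K.smul g y = y) :
    Fx H (o.obj X) ((D.el z).fn y) := fun g => by
  rw [← (eqvG_iff _).1 (D.eqv z), h]

theorem ex_R (z : (TF M a).obj (gl K) ⟶ X) : ∃ u, R D P φ c z u := by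
  obtain ⟨h, -, hh⟩ := φ.ex_res P (fun _ y => (D.el z).fn (c.o y))
    ((D.el z).cont.comp (c.cont.comp continuous_snd)) (fun _ => (D.el z).based) fun _ y =>
      fx_el D z _ fun g => by
        induction y using OnePoint.rec with
        | infty => rfl
        | coe y => exact congrArg OnePoint.some (c.fix g y)
  exact ⟨h 0, hh 0⟩

theorem R_zero : R D P φ c (0 : _ ⟶ X) (cst J _ N) := fun y =>
  (Fr.res_cst y).trans (congrArg _ (D.zero _).symm)

variable {D P φ c}

theorem R.post {z : (TF M a).obj (gl K) ⟶ X} {u} (h : R D P φ c z u) (f : X ⟶ Y) :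
    R D P φ c (z ≫ f) (im (P.Φ.map (o.map f)) u) := fun y =>
  (Fr.Res.post (o.map f) h y).trans (congrArg _ (D.post z f _).symm)

theorem R.ht {z z' : (TF M a).obj (gl K) ⟶ X} {u u'} (h : R D P φ c z u) (h' : R D P φ c z' u')
    (e : MHtpy z z') : Ht u u' := by
  obtain ⟨Z, rfl, rfl⟩ := (mHtpy_iff z z').1 e
  have e : ∀ t y, app (gincl t K).hom y = smashII (P241.Geo.L K) (y, t) := fun t y => by
    induction y using OnePoint.rec with
    | infty => exact app_infty _
    | coe y => rfl
  obtain ⟨w, hc, hw⟩ := φ.ex_res P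
    (fun t y => (D.el Z).fn (smashII (P241.Geo.L K) (c.o y, Set.projIcc 0 1 zero_le_one t)))
    ((D.el Z).cont.comp ((continuous_smashII _).comp ((c.cont.comp continuous_snd).prodMk
      (continuous_projIcc.comp continuous_fst)))) (fun _ => (D.el Z).based) fun _ y =>
      fx_el D Z _ fun g => by
        induction y using OnePoint.rec with
        | infty => rfl
        | coe y => exact congrArg OnePoint.some (Prod.ext (c.fix g y) rfl)
  refine ⟨w, hc, Fr.Res.eq (fun y => ?_) h, Fr.Res.eq (fun y => ?_) h'⟩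
  · refine (hw 0 y).trans (congrArg _ ((congrArg _ ?_).trans (D.pre _ Z _).symm))
    rw [Set.projIcc_left]
    exact (e 0 _).symm
  · refine (hw 1 y).trans (congrArg _ ((congrArg _ ?_).trans (D.pre _ Z _).symm))
    rw [Set.projIcc_right]
    exact (e 1 _).symm

theorem R.step (E : Dec H) {z : (TF M a).obj (gl K) ⟶ X} {u} (h : R D P φ c z u) :
    R D P (φ.succ E) (c.succ E) (stb M a K ≫ z) (suk u E.r) :=
  Fr.Res.step E h (D.el _).based fun _ q hq => D.stab z _ q hq _

variable (D P φ c) in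
theorem iter (k : ℕ) : ∃ (N' J' : ℕ) (φ' : Fr H (a + k) N') (c' : Ch H (sp K k) J'),
    ∀ (X : M) (z : (TF M a).obj (gl K) ⟶ X) u, R D P φ c z u →
      ∃ u', R D P φ' c' (stk M a K k ≫ z) u' ∧
        Quot.mk (PiRel _) (.of u') = Quot.mk _ (.of u) := by
  obtain ⟨E⟩ := ex_dec H
  induction k with
  | zero => exact ⟨N, J, φ, c, fun X z u h => ⟨u, (Category.id_comp z).symm ▸ h, rfl⟩⟩
  | succ k ih =>
    obtain ⟨N', J', φ', c', ih⟩ := ih
    refine ⟨_, _, φ'.succ E, c'.succ E, fun X z u h => ?_⟩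
    obtain ⟨u', h1, h2⟩ := ih X z u h
    exact ⟨_, (Category.assoc (stb M (a + k) (sp K k)) (stk M a K k) z).symm ▸ h1.step E,
      (mk_suk _ _).trans h2⟩

theorem R.inj {z z' : (TF M a).obj (gl (K0 H j)) ⟶ X} {u} (h : R D P φ (c0 H j) z u)
    (h' : R D P φ (c0 H j) z' u) : z = z' :=
  D.inj _ _ (ext_eq (fun x : (K0 H j).carrier => x.1.1) (fun _ _ => rfl) (D.eqv z) (D.eqv z') (by
    rintro ⟨⟨q, s⟩, t⟩ rfl
    exact Fr.Res.inj h h' (.some (vecCons t s))))

variable (D φ) in
theorem ex_z (u : Pm (Rn (j + 1)) (P.Φ.obj (o.obj X)) N) :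
    ∃ z : (TF M a).obj (gl (K0 H j)) ⟶ X, R D P φ (c0 H j) z u := by
  obtain ⟨W, h1, h2⟩ := ex_ext (fun x : (K0 H j).carrier => x.1.1) (fun _ _ => rfl) lc0
    (fun y => (o.obj X).V.ac φ.bw (P.e _ N (u.fn (OnePoint.map (c0 H j).b y))))
    ((continuous_ac _ _).comp ((P.ok _ N).1.continuous.comp (u.cont.comp cont_b0)))
    (by rw [OnePoint.map_infty, u.based, (P.ok _ N).2.1, OSp.ac_bp])
    (fun _ => φ.fx_bw _ P _) fun _ _ => rfl
  obtain ⟨z, rfl⟩ := D.surj W h1
  refine ⟨z, fun y => ?_⟩
  induction y using OnePoint.rec with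
  | infty => exact (congrArg _ u.based).trans ((P.ok _ N).2.1.trans
      ((OSp.ac_bp _ _ _ _).symm.trans (congrArg _ (D.el z).based.symm)))
  | coe y =>
    refine Eq.trans ?_ (congrArg _ (h2 ((c0 H j).c y) rfl).symm)
    rw [ac_ac_id _ φ.fw_bw, OnePoint.map_some, (c0 H j).bc]

theorem R.mh {z z' : (TF M a).obj (gl (K0 H j)) ⟶ X} {u u'} (h : R D P φ (c0 H j) z u)
    (h' : R D P φ (c0 H j) z' u') (e : Ht u u') : MHtpy z z' := by
  obtain ⟨w, hc, rfl, rfl⟩ := e
  have hb : ∀ t, (o.obj X).V.ac φ.bw (P.e _ N ((w t).fn ∞)) = (o.obj X).V.bp _ := fun t => by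
    rw [(w t).based, (P.ok _ N).2.1, OSp.ac_bp]
  obtain ⟨W, h1, h2⟩ := ex_ext (K := xt (K0 H j) Iv) (fun x => x.1.1.1) (fun _ _ => rfl)
    (lc0.comp_continuous continuous_fst) (fun y => y.elim ((o.obj X).V.bp _) fun x =>
      (o.obj X).V.ac φ.bw (P.e _ N ((w x.2.1).fn (.some ((c0 H j).b x.1)))))
    ((isQuotientMap_smashII (P241.Geo.L (K0 H j))).continuous_iff.2
      (((continuous_ac _ φ.bw).comp ((P.ok _ N).1.continuous.comp (hc.comp
        ((continuous_subtype_val.comp continuous_snd).prodMk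
          (cont_b0.comp continuous_fst))))).congr (by
        rintro ⟨y, t⟩
        induction y using OnePoint.rec with
        | infty => exact hb t
        | coe y => rfl))) rfl (fun y => by
      induction y using OnePoint.rec with
      | infty => exact fun g => Ac_bp _ _
      | coe y => exact φ.fx_bw _ P _) fun _ _ => rfl
  obtain ⟨Z, rfl⟩ := D.surj W h1
  have e : ∀ t : unitInterval,
      R D P φ (c0 H j) ((TF M a).map (gincl t (K0 H j)) ≫ Z) (w t) := fun t y => by
    refine Eq.trans ?_ (congrArg _ (D.pre _ Z _).symm)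
    induction y using OnePoint.rec with
    | infty => exact (congrArg _ (w t).based).trans ((P.ok _ N).2.1.trans
        ((OSp.ac_bp _ _ _ _).symm.trans (congrArg _ ((congrArg _ (app_infty _)).trans
          (D.el Z).based).symm)))
    | coe y =>
      refine Eq.trans ?_ (congrArg _ (h2 ((c0 H j).c y, t) rfl).symm)
      exact ((ac_ac_id _ φ.fw_bw _).trans
        (congrArg (fun s => P.e _ N ((w t).fn (.some s))) ((c0 H j).bc y))).symm
  exact (mHtpy_iff z z').2 ⟨Z, (e 0).inj h, (e 1).inj h'⟩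

theorem R.gwl {z : (TF M a).obj (gl (K0 H j)) ⟶ X} {u} (h : R D P φ (c0 H j) z u)
    (d : Map Rr Rr) :
    R D P φ (c0 H j) ((TF M a).map (gwl (cell G H j) (toHom d)) ≫ z) (pre u (dg j d)) :=
  fun y => (h _).trans (congrArg _ ((D.pre _ z _).trans (congrArg _ (app_gwl d y))).symm)

variable (M) in
/-- Row P2. -/
theorem p2 : P2 M := by
  intro o D H P p X Y f hs
  obtain ⟨E⟩ := ex_dec H
  constructor
  · rintro ⟨@⟨j, n, u⟩⟩
    obtain ⟨l, a, ⟨φ⟩⟩ := ex_fr E n
    obtain ⟨z, hz⟩ := ex_z (j := j + l) D φ (suk u (l + 1))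
    obtain ⟨m, d, k, x, hm, hd, hx⟩ := (hs a (j + l)).1 z
    obtain ⟨N', J', φ', c', hi⟩ := iter D P φ (c0 H (j + l)) k
    obtain ⟨u', h1, h2⟩ := hi _ _ _ (hz.gwl d)
    obtain ⟨x0, h0⟩ := ex_R D P φ' c' x
    exact ⟨m, _, _, hm, ⟨_, _, _, _, _, dg_dg hd, fun _ => rfl, mk_suk u (l + 1), h2.symm⟩,
      _, _, x0, _, fun _ => rfl, rfl, ((h0.post f).ht h1 hx).mk_eq⟩
  · rintro _ _ ⟨j, n, u, v, huv, rfl, rfl⟩ hn
    obtain rfl : v = im _ u := pm_ext huv
    obtain ⟨k, hk⟩ := ht_of_null hn
    obtain ⟨l, a, ⟨φ⟩⟩ := ex_fr E (n + k)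
    obtain ⟨z, hz⟩ := ex_z (j := j + k + l) D φ (suk (suk u k) (l + 1))
    have h := hk (l + 1)
    rw [suk_im, suk_im] at h
    obtain ⟨m, d, k', hm, hd, hx⟩ := (hs a (j + k + l)).2 z ((hz.post f).mh (R_zero D P φ _) h)
    obtain ⟨N', J', φ', c', hi⟩ := iter D P φ (c0 H (j + k + l)) k'
    obtain ⟨u', h1, h2⟩ := hi _ _ _ (hz.gwl d)
    exact ⟨m, _, hm, ⟨_, _, _, _, _, dg_dg hd, fun _ => rfl,
      (mk_suk _ (l + 1)).trans (mk_suk u k), h2.symm⟩, _, _, cst _ _ _, fun _ => rfl,
      (h1.ht (R_zero D P φ' c') hx).mk_eq.symm⟩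

end Vale.Agent.P241GQ
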