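import Vale.Agent.P241GQ.St
import Vale.Agent.P241GP.Emb
import Vale.Agent.P241GR.D

/-!
# P241G, row P2: restriction of `a ρ_G` to a subgroup, fixed points, induced maps
-/

open CategoryTheory OnePoint Matrix Topology Filter

noncomputable section

namespace Vale.Agent.P241GQ

open P251.St P251CX P241.St P241GX P241GR P241GP

variable {G : Type} [Group G] {H : Subgroup G} {a N J : ℕ}

/-- `G` as a free `H`-set -/
structure Dec (H : Subgroup G) where
  /-- the index -/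
  r : ℕ
  /-- the decomposition -/
  e : Fin r × H ≃ G
  mul : ∀ i (h h' : H), e (i, h * h') = h * e (i, h')

theorem ex_dec [Finite G] (H : Subgroup G) : Nonempty (Dec H) := by
  let c : Fin (Nat.card (G ⧸ H)) → G := fun i => ((Finite.equivFin (G ⧸ H)).symm i).out⁻¹
  refine ⟨⟨_, Equiv.ofBijective (fun q : Fin (Nat.card (G ⧸ H)) × H => q.2 * c q.1) ⟨?_, ?_⟩,
    fun i h h' => mul_assoc (h : G) h' (c i)⟩⟩
  · rintro ⟨i, h⟩ ⟨i', h'⟩ e
    have e1 : ∀ i (h : H), (QuotientGroup.mk ((h : G) * c i)⁻¹ : G ⧸ H) =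
        (Finite.equivFin (G ⧸ H)).symm i := fun i h => by
      simp only [c, _root_.mul_inv_rev, inv_inv]
      rw [QuotientGroup.mk_mul_of_mem _ (H.inv_mem h.2), QuotientGroup.out_eq']
    obtain rfl : i = i' := (Finite.equivFin (G ⧸ H)).symm.injective
      ((e1 i h).symm.trans ((congrArg (fun g : G => (QuotientGroup.mk g⁻¹ : G ⧸ H)) e).trans
        (e1 i' h')))
    exact Prod.ext rfl (Subtype.ext (mul_right_cancel e))
  · intro g
    obtain ⟨h, hh⟩ := QuotientGroup.mk_out_eq_mul H g⁻¹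
    exact ⟨(Finite.equivFin (G ⧸ H) (QuotientGroup.mk g⁻¹), h), by simp [c, hh]⟩

theorem Dec.pos (D : Dec H) : 0 < D.r := (D.e.symm 1).1.pos

theorem Dec.symm_mul (D : Dec H) (h : H) (g : G) : (D.e.symm (h * g)).1 = (D.e.symm g).1 := by
  obtain ⟨⟨i, h'⟩, rfl⟩ := D.e.surjective g
  rw [← D.mul, D.e.symm_apply_apply, D.e.symm_apply_apply]

/-- `a ρ_G = N ρ_H` -/
structure Fr (H : Subgroup G) (a N : ℕ) where
  /-- the bijection of the bases -/
  ψ : Fin N × H ≃ Fin a × G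
  mul : ∀ l (h h' : H), ψ (l, h * h') = ((ψ (l, h')).1, h * (ψ (l, h')).2)

/-- the bijection for one more copy of `ρ_G` -/
def Fr.nx (φ : Fr H a N) (D : Dec H) : Fin (N + D.r) × H ≃ Fin (a + 1) × G :=
  ((es N D.r).symm.prodCongr (.refl H)).trans <| (Equiv.sumProdDistrib _ _ _).trans <|
    (D.e.sumCongr φ.ψ).trans <| optionProdEquiv.symm.trans <|
      (finSuccEquiv a).symm.prodCongr (.refl G)

theorem Fr.nx_inl (φ : Fr H a N) (D : Dec H) (i) (h : H) :
    φ.nx D (es N D.r (.inl i), h) = (0, D.e (i, h)) := by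
  simp [Fr.nx]

theorem Fr.nx_inr (φ : Fr H a N) (D : Dec H) (l) (h : H) :
    φ.nx D (es N D.r (.inr l), h) = ((φ.ψ (l, h)).1.succ, (φ.ψ (l, h)).2) := by
  simp [Fr.nx, Prod.map]

/-- one more copy of `ρ_G` -/
def Fr.succ (φ : Fr H a N) (D : Dec H) : Fr H (a + 1) (N + D.r) where
  ψ := φ.nx D
  mul l h h' := by
    obtain ⟨l | l, rfl⟩ := (es N D.r).surjective l
    · rw [nx_inl, nx_inl, D.mul]
    · rw [nx_inr, nx_inr, φ.mul]

theorem ex_fr (D : Dec H) (n : ℕ) : ∃ l a, Nonempty (Fr H a (n + (l + 1))) := by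
  have h : ∀ a, Nonempty (Fr H a (D.r * a)) := fun a => by
    induction a with
    | zero => exact ⟨⟨Equiv.equivOfIsEmpty (Fin 0 × H) _, fun l => l.elim0⟩⟩
    | succ a ih => exact ih.map fun φ => φ.succ D
  have := Nat.le_mul_of_pos_left (n + 1) D.pos
  exact ⟨D.r * (n + 1) - (n + 1), n + 1, by
    rw [show n + (D.r * (n + 1) - (n + 1) + 1) = D.r * (n + 1) by omega]; exact h _⟩

variable [Finite G] (φ : Fr H a N)

/-- the coordinates over `H` -/
def Fr.sg (s : Fin a → G → ℝ) (l : Fin N) (h : H) : ℝ := s (φ.ψ (l, h)).1 (φ.ψ (l, h)).2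

/-- the permutation -/
def Fr.σ : Fin (Nat.card H * N) ≃ Fin (Nat.card G * a) :=
  ((ix H N).trans φ.ψ).trans (ix G a).symm

/-- `a ρ_G → N ρ_H` -/
def Fr.fw : Emb (Nat.card G * a) (Nat.card H * N) := (ex_perm φ.σ).choose

/-- `N ρ_H → a ρ_G` -/
def Fr.bw : Emb (Nat.card H * N) (Nat.card G * a) := (ex_perm φ.σ.symm).choose

theorem Fr.ap_fw (s) : ap φ.fw s = s ∘ φ.σ := (ex_perm φ.σ).choose_spec s

theorem Fr.ap_bw (s) : ap φ.bw s = s ∘ φ.σ.symm := (ex_perm φ.σ.symm).choose_spec s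

theorem Fr.bw_fw (s) : ap φ.bw (ap φ.fw s) = s := by
  rw [ap_bw, ap_fw]; exact funext fun i => by simp

theorem Fr.fw_bw (s) : ap φ.fw (ap φ.bw s) = s := by
  rw [ap_fw, ap_bw]; exact funext fun i => by simp

theorem Fr.fw_cd (s : Fin a → G → ℝ) : ap φ.fw (cd s) = cd (φ.sg s) := by
  rw [ap_fw]; exact funext fun i => by simp [Fr.σ, cd_apply, Fr.sg]

omit [Finite G] in
theorem Fr.sg_tw (g : H) (s : Fin a → G → ℝ) : φ.sg (tw (g : G) s) = tw g (φ.sg s) :=
  funext₂ fun l h => by simp [Fr.sg, tw, φ.mul]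

variable (X : Action OSp G)

/-- the action on `X (a ρ)` -/
def Ac (g : G) (x : X.V.sp (Nat.card G * a)) : X.V.sp (Nat.card G * a) :=
  X.V.ac (act g a) ((X.ρ g).app _ x)

omit [Finite G] in
theorem rho_ac (g : G) {m n : ℕ} (f : Emb m n) (x : X.V.sp m) :
    (X.ρ g).app n (X.V.ac f x) = X.V.ac f ((X.ρ g).app m x) := ((X.ρ g).ok n).2.2 m f x

theorem Ac_mul (g g' : G) (x : X.V.sp (Nat.card G * a)) :
    Ac X (g * g') x = Ac X g (Ac X g' x) := by
  rw [Ac, Ac, Ac, rho_ac, map_mul]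
  refine X.V.ac_comp _ _ _ _ _ _ (fun s => ?_) _
  obtain ⟨s, rfl⟩ := cd_surj s
  rw [ap_act, ap_act, ap_act, tw_mul]

theorem cont_Ac (g : G) : Continuous (Ac X g : X.V.sp (Nat.card G * a) → _) :=
  (continuous_ac _ _).comp ((X.ρ g).ok _).1

theorem Ac_bp (g : G) : Ac X g (X.V.bp (Nat.card G * a)) = X.V.bp _ :=
  (congrArg (X.V.ac _) ((X.ρ g).ok _).2.1).trans (X.V.ac_bp _ _ _)

theorem eqvG_iff {K : GSpace G} {u : Pm K.und X.V (Nat.card G * a)} :
    EqvG K X a u ↔ ∀ g x, u.fn (K.smul g x) = Ac X g (u.fn x) :=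
  forall_congr' fun _ => forall_isAct

variable (H) in
/-- fixed points -/
def Fx (x : X.V.sp (Nat.card G * a)) : Prop := ∀ g : H, Ac X g x = x

theorem Fr.fw_Ac (g : H) (x : X.V.sp (Nat.card G * a)) :
    X.V.ac φ.fw (Ac X g x) = X.V.ac (act g N) ((X.ρ g).app _ (X.V.ac φ.fw x)) := by
  rw [Ac, rho_ac]
  refine ac_ac _ (fun s => ?_) _
  obtain ⟨s, rfl⟩ := cd_surj s
  rw [ap_act, fw_cd, fw_cd, ap_act, sg_tw]

variable (P : PhiF H)

theorem Fr.mem_iff (x : X.V.sp (Nat.card G * a)) :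
    X.V.ac φ.fw x ∈ Set.range (P.e X N) ↔ Fx H X x := by
  refine ((P.ok X N).2.2.1 _).trans (forall_congr' fun g => forall_isAct.trans ?_)
  rw [← φ.fw_Ac]
  exact Function.LeftInverse.injective (ac_ac_id X.V φ.bw_fw) |>.eq_iff

theorem Fr.fx_bw (y : (P.Φ.obj X).sp N) : Fx H X (X.V.ac φ.bw (P.e X N y)) :=
  (φ.mem_iff X P _).1 ⟨y, (ac_ac_id X.V φ.fw_bw _).symm⟩

/-- `u` is `z` read in the geometric fixed points -/
def Fr.Res (z : (Rn J).Pt → X.V.sp (Nat.card G * a)) (u : Pm (Rn J) (P.Φ.obj X) N) : Prop :=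
  ∀ y, P.e X N (u.fn y) = X.V.ac φ.fw (z y)

variable {φ X P}

theorem Fr.Res.eq {z : (Rn J).Pt → X.V.sp (Nat.card G * a)} {u v : Pm (Rn J) (P.Φ.obj X) N}
    (h : φ.Res X P z u) (h' : φ.Res X P z v) : u = v :=
  pm_ext fun y => (P.ok X N).1.injective ((h y).trans (h' y).symm)

theorem Fr.Res.inj {z z' : (Rn J).Pt → X.V.sp (Nat.card G * a)} {u : Pm (Rn J) (P.Φ.obj X) N}
    (h : φ.Res X P z u) (h' : φ.Res X P z' u) (y) : z y = z' y :=
  Function.LeftInverse.injective (ac_ac_id X.V φ.bw_fw) ((h y).symm.trans (h' y))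

theorem Fr.res_cst : φ.Res X P (fun _ => X.V.bp _) (cst J _ N) := fun _ =>
  (P.ok X N).2.1.trans (X.V.ac_bp _ _ _).symm

theorem Fr.Res.post {Y : Action OSp G} (f : X ⟶ Y) {z : (Rn J).Pt → X.V.sp (Nat.card G * a)}
    {u : Pm (Rn J) (P.Φ.obj X) N} (h : φ.Res X P z u) :
    φ.Res Y P (fun y => f.hom.app _ (z y)) (im (P.Φ.map f) u) := fun y =>
  (P.nat f N _).trans ((congrArg (f.hom.app _) (h y)).trans ((f.hom.ok _).2.2 _ _ _))

variable (φ P) in
theorem Fr.ex_res (z : ℝ → (Rn J).Pt → X.V.sp (Nat.card G * a))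
    (hc : Continuous (Function.uncurry z)) (h0 : ∀ t, z t ∞ = X.V.bp _)
    (hf : ∀ t y, Fx H X (z t y)) : ∃ h : ℝ → Pm (Rn J) (P.Φ.obj X) N,
      Continuous (Function.uncurry fun t => (h t).fn) ∧ ∀ t, φ.Res X P (z t) (h t) := by
  choose w hw using fun t y => (φ.mem_iff X P _).2 (hf t y)
  have c : Continuous (Function.uncurry w) := (P.ok X N).1.continuous_iff.2
    (((continuous_ac _ φ.fw).comp hc).congr fun q => (hw q.1 q.2).symm)
  exact ⟨fun t => ⟨w t, c.comp (continuous_const.prodMk continuous_id),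
    (P.ok X N).1.injective (by rw [hw, h0, X.V.ac_bp, (P.ok X N).2.1])⟩, c, hw⟩

/-- Suspension by `ρ_G` is, on fixed points, the iterated suspension. -/
theorem Fr.Res.step (D : Dec H) {z : (Rn J).Pt → X.V.sp (Nat.card G * a)}
    {z' : (Rn (J + D.r)).Pt → X.V.sp (Nat.card G * (a + 1))} {u : Pm (Rn J) (P.Φ.obj X) N}
    (h : φ.Res X P z u) (h0 : z' ∞ = X.V.bp _)
    (hz : ∀ (y : Fin (J + D.r) → ℝ) (q : Emb (Nat.card G * a) (Nat.card G * (a + 1))),
      (∀ s, ap q (cd s) = cd (vecCons (fun g => y (es J D.r (.inl (D.e.symm g).1))) s)) →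
      z' (.some y) = X.V.ac q (z (.some fun i => y (es J D.r (.inr i))))) :
    (φ.succ D).Res X P z' (suk u D.r) := by
  intro y
  induction y using OnePoint.rec with
  | infty => rw [(suk u D.r).based, h0, X.V.ac_bp, (P.ok X _).2.1]
  | coe y =>
    obtain ⟨f, f1, f2, f3⟩ := suk_fn u D.r y
    obtain ⟨q, hq⟩ := ex_consG (fun g => y (es J D.r (.inl (D.e.symm g).1))) a
    obtain ⟨w, hw⟩ := ex_dg H f
    rw [f3, (P.ok X _).2.2.2 _ f w hw, h, hz y q hq]
    refine ac_ac _ (fun s => ?_) _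
    obtain ⟨s, rfl⟩ := cd_surj s
    rw [Fr.fw_cd, hw, hq, Fr.fw_cd]
    refine congrArg cd (funext₂ fun l k => ?_)
    obtain ⟨l | l, rfl⟩ := (es N D.r).surjective l
    · rw [f2]
      simp [Fr.sg, Fr.succ, Fr.nx_inl]
    · rw [f1]
      simp [Fr.sg, Fr.succ, Fr.nx_inr]

section Ext

variable {K : GSpace G} (κ : K.carrier → G ⧸ H) (hg : ∀ (g : G) x, κ (g • x) = g • κ x)

include hg in
theorem ex_ext (hκ : IsLocallyConstant κ) (F : K.und.Pt → X.V.sp (Nat.card G * a))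
    (hF : Continuous F) (h0 : F ∞ = X.V.bp _) (hf : ∀ y, Fx H X (F y))
    (hi : ∀ (g : G) (x : K.carrier), F (.some (g • x)) = F (.some x)) :
    ∃ W : Pm K.und X.V (Nat.card G * a), EqvG K X a W ∧
      ∀ x : K.carrier, κ x = (1 : G) → W.fn (.some x) = F (.some x) := by
  have hq : ∀ q : G ⧸ H, Continuous fun y => Ac X q.out (F y) := fun q => (cont_Ac X _).comp hF
  have hm : ∀ (g : G) y, Ac X (g : G ⧸ H).out (F y) = Ac X g (F y) := fun g y => by
    obtain ⟨h, hh⟩ := QuotientGroup.mk_out_eq_mul H g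
    rw [hh, Ac_mul, hf]
  refine ⟨⟨fun y => y.elim (X.V.bp _) fun x => Ac X (κ x).out (F (.some x)), ?_, rfl⟩,
    (eqvG_iff X).2 fun g y => ?_, fun x hx => ?_⟩
  · refine (OnePoint.continuous_iff _).2 ⟨fun U hU => ?_, continuous_iff_continuousAt.2 fun x => ?_⟩
    · have : ∀ᶠ x in coclosedCompact K.carrier, ∀ q : G ⧸ H, Ac X q.out (F (.some x)) ∈ U :=
        eventually_all.2 fun q => ((OnePoint.continuous_iff _).1 (hq q)).1 (by
          rwa [h0, Ac_bp])
      exact this.mono fun x hx => hx (κ x)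
    · refine ((hq (κ x)).comp OnePoint.continuous_coe).continuousAt.congr ?_
      exact (hκ.eventually_eq x).mono fun x' hx => by
        change _ = Ac X (κ x').out _
        rw [hx]; rfl
  · induction y using OnePoint.rec with
    | infty => exact (Ac_bp X g).symm
    | coe x =>
      change Ac X (κ (g • x)).out (F (.some (g • x))) = Ac X g (Ac X (κ x).out (F (.some x)))
      rw [hi, hg, ← Ac_mul, ← hm (g * _), ← smul_eq_mul g, ← MulAction.Quotient.smul_mk,
        QuotientGroup.out_eq']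
  · change Ac X (κ x).out _ = _
    rw [hx, hm]
    exact hf _ 1

include hg in
theorem ext_eq {W W' : Pm K.und X.V (Nat.card G * a)} (h : EqvG K X a W) (h' : EqvG K X a W')
    (e : ∀ x : K.carrier, κ x = (1 : G) → W.fn (.some x) = W'.fn (.some x)) (y) :
    W.fn y = W'.fn y := by
  induction y using OnePoint.rec with
  | infty => rw [W.based, W'.based]
  | coe x =>
    obtain ⟨g, hx⟩ := QuotientGroup.mk_surjective (κ x)
    have e1 : (OnePoint.some x : K.und.Pt) = K.smul g (.some (g⁻¹ • x)) :=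
      congrArg OnePoint.some (smul_inv_smul g x).symm
    rw [e1, (eqvG_iff X).1 h, (eqvG_iff X).1 h', e _ (by
      rw [hg, ← hx, MulAction.Quotient.smul_mk, smul_eq_mul, inv_mul_cancel])]

end Ext

end Vale.Agent.P241GQ
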