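import Vale.Agent.P241GR.G
import Vale.Agent.P251CJ.Pair
import Vale.Agent.P251CP.Col

/-!
# P241G, row P2: suspension of elements of homotopy groups of orthogonal spectra
-/

open OnePoint Matrix Topology

noncomputable section

namespace Vale.Agent.P241GQ

open P251.St P251CX

variable {k m n p j : ℕ} {X Y : OSp}

theorem ex_ap (g : (Fin m → ℝ) → Fin n → ℝ) (c : ℝ) (h : ∀ x y, g x ⬝ᵥ g y = x ⬝ᵥ y + c) :
    ∃ q : Emb m n, ∀ x, ap q x = g x := P251CJ.exists_ap g c h

theorem ex_comp (q : Emb m n) (r : Emb n p) : ∃ s : Emb m p, ∀ x, ap s x = ap r (ap q x) :=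
  P251CJ.exists_ap_comp q r

theorem ex_id (m : ℕ) : ∃ q : Emb m m, ∀ x, ap q x = x := P251CJ.exists_ap_id m

theorem ac_congr (X : OSp) {f g : Emb m n} (h : ∀ s, ap f s = ap g s) (x : X.sp m) :
    X.ac f x = X.ac g x := by
  rw [show f = g from P251CJ.JP.ext h]

theorem ac_sq (X : OSp) {f : Emb k m} {g : Emb m n} {f' : Emb k p} {g' : Emb p n}
    (h : ∀ s, ap g (ap f s) = ap g' (ap f' s)) (x : X.sp k) :
    X.ac g (X.ac f x) = X.ac g' (X.ac f' x) := by
  obtain ⟨s, hs⟩ := ex_comp f g
  rw [← X.ac_comp _ _ _ f g s hs, X.ac_comp _ _ _ f' g' s fun x => (hs x).trans (h x)]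

theorem cont_ac (X : OSp) (f : Emb m n) : Continuous (X.ac f) :=
  (X.cont m n).comp (continuous_const.prodMk continuous_id :
    Continuous fun x : X.sp m => ((f : OnePoint (Emb m n)), x))

theorem pm_ext {A : Space} {u v : Pm A X n} (h : ∀ x, u.fn x = v.fn x) : u = v := by
  cases u
  cases v
  congr
  exact funext h

/-- a new first coordinate -/
def consH (n : ℕ) : ℝ × (Fin n → ℝ) ≃ₜ (Fin (n + 1) → ℝ) where
  toFun q := vecCons q.1 q.2
  invFun y := (y 0, fun i => y i.succ)
  left_inv _ := rfl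
  right_inv y := Fin.cons_self_tail y
  continuous_toFun := by fun_prop
  continuous_invFun := by fun_prop

/-- `S^1 × S^n → S^{n+1}` -/
def sq (n : ℕ) (q : OnePoint ℝ × OnePoint (Fin n → ℝ)) : OnePoint (Fin (n + 1) → ℝ) :=
  (consH n).onePointCongr (P251.G.LC.smash q.1 q.2)

theorem cont_sq (n : ℕ) : Continuous (sq n) :=
  (consH n).onePointCongr.continuous.comp P251.G.LC.continuous_smash

theorem quot_sq (n : ℕ) : IsQuotientMap (sq n) :=
  .of_surjective_continuous (fun y => by
    induction y using OnePoint.rec with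
    | infty => exact ⟨(∞, ∞), rfl⟩
    | coe y => exact ⟨(.some (y 0), .some fun i => y i.succ),
        congrArg OnePoint.some (Fin.cons_self_tail y)⟩) (cont_sq n)

theorem ex_ci (n : ℕ) (t : ℝ) : ∃ q : Emb n (n + 1), ∀ s, ap q s = vecCons t s :=
  ex_ap _ (t * t) fun x y => by simp [add_comm]

/-- the embedding `s ↦ (t, s)` -/
def ci (n : ℕ) (t : ℝ) : Emb n (n + 1) := (ex_ci n t).choose

theorem ap_ci (t : ℝ) (s : Fin n → ℝ) : ap (ci n t) s = vecCons t s := (ex_ci n t).choose_spec s

theorem cont_ci (n : ℕ) : Continuous (OnePoint.map (ci n)) := by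
  refine (P251CJ.pjO n (n + 1)).isInducing.continuous_iff.2 (P251CJ.continuous_iff.2 fun x => ?_)
  refine ((cont_sq n).comp (continuous_id.prodMk continuous_const :
    Continuous fun t : OnePoint ℝ => (t, OnePoint.some x))).congr fun t => ?_
  induction t using OnePoint.rec with
  | infty => rfl
  | coe t => exact congrArg OnePoint.some (ap_ci t x).symm

/-- the suspension of a based function -/
def suf (u : (Rn j).Pt → X.sp n) (y : (Rn (j + 1)).Pt) : X.sp (n + 1) :=
  y.elim (X.bp _) fun y => X.ac (ci n (y 0)) (u (.some fun i => y i.succ))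

theorem cont_suf (F : ℝ → (Rn j).Pt → X.sp n) (hF : Continuous (Function.uncurry F))
    (h0 : ∀ t, F t ∞ = X.bp n) : Continuous (Function.uncurry fun t => suf (F t)) := by
  refine (quot_sq j).continuous_lift_prod_right ?_
  refine ((X.cont n (n + 1)).comp (((cont_ci n).comp (continuous_fst.comp continuous_snd)).prodMk
    (hF.comp (continuous_fst.prodMk (continuous_snd.comp continuous_snd))))).congr ?_
  rintro ⟨t, a, y⟩
  induction a using OnePoint.rec with
  | infty => rfl
  | coe a =>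
    induction y using OnePoint.rec with
    | infty => exact (congrArg (X.ac (ci n a)) (h0 t)).trans (X.ac_bp _ _ _)
    | coe y => rfl

/-- the suspension -/
def su (u : Pm (Rn j) X n) : Pm (Rn (j + 1)) X (n + 1) :=
  ⟨suf u.fn, (cont_suf (fun _ => u.fn) (u.cont.comp continuous_snd) fun _ => u.based).comp
    (continuous_const.prodMk continuous_id : Continuous fun y => ((0 : ℝ), y)), rfl⟩

/-- based homotopy -/
def Ht (u v : Pm (Rn j) X n) : Prop := ∃ h : ℝ → Pm (Rn j) X n,
  Continuous (Function.uncurry fun t => (h t).fn) ∧ h 0 = u ∧ h 1 = v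

theorem Ht.refl (u : Pm (Rn j) X n) : Ht u u :=
  ⟨fun _ => u, u.cont.comp continuous_snd, rfl, rfl⟩

theorem Ht.symm {u v : Pm (Rn j) X n} : Ht u v → Ht v u := fun ⟨h, hc, h0, h1⟩ =>
  ⟨fun t => h (1 - t), hc.comp (f := fun q : ℝ × (Rn j).Pt => (1 - q.1, q.2)) (by fun_prop),
    by simpa using h1, by simpa using h0⟩

theorem Ht.trans {u v w : Pm (Rn j) X n} : Ht u v → Ht v w → Ht u w := by
  rintro ⟨h, hc, rfl, rfl⟩ ⟨h', hc', h0, rfl⟩
  refine ⟨fun t => if t ≤ 1 / 2 then h (2 * t) else h' (2 * t - 1), ?_, by norm_num, by norm_num⟩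
  have : Continuous fun q : ℝ × (Rn j).Pt =>
      if q.1 ≤ 1 / 2 then (h (2 * q.1)).fn q.2 else (h' (2 * q.1 - 1)).fn q.2 :=
    Continuous.if_le (hc.comp ((continuous_const.mul continuous_fst).prodMk continuous_snd))
      (hc'.comp (((continuous_const.mul continuous_fst).sub continuous_const).prodMk
        continuous_snd)) continuous_fst continuous_const fun q hq => by
        rw [hq]; norm_num [h0]
  refine this.congr fun q => ?_
  change _ = (if q.1 ≤ 1 / 2 then h (2 * q.1) else h' (2 * q.1 - 1)).fn q.2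
  split_ifs <;> rfl

theorem Ht.su {u v : Pm (Rn j) X n} : Ht u v → Ht (su u) (su v) := by
  rintro ⟨h, hc, rfl, rfl⟩
  exact ⟨fun t => P241GQ.su (h t), cont_suf (fun t => (h t).fn) hc fun t => (h t).based, rfl, rfl⟩

theorem Ht.mk_eq {u v : Pm (Rn j) X n} :
    Ht u v → Quot.mk (PiRel X) (.of u) = Quot.mk _ (.of v) := by
  rintro ⟨h, hc, rfl, rfl⟩
  exact Quot.sound (.htpy h hc)

/-- the system whose colimit is the union of the homotopy groups -/
def sys (X : OSp) : P251CP.Sys (El X) where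
  σ | .of u => .of (su u)
  H x y := ∃ (j n : ℕ) (u v : Pm (Rn j) X n), x = .of u ∧ y = .of v ∧ Ht u v
  eqv := ⟨fun | .of u => ⟨_, _, u, u, rfl, rfl, .refl u⟩,
    fun ⟨_, _, u, v, a, b, h⟩ => ⟨_, _, v, u, b, a, h.symm⟩, by
      rintro _ _ _ ⟨_, _, u, v, rfl, rfl, h⟩ ⟨_, _, _, w, e, rfl, h'⟩
      cases e
      exact ⟨_, _, u, w, rfl, rfl, h.trans h'⟩⟩
  map := by
    rintro _ _ ⟨_, _, u, v, rfl, rfl, h⟩
    exact ⟨_, _, _, _, rfl, rfl, h.su⟩

theorem gen (X : OSp) : (sys X).Gen (PiRel X) where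
  le := by
    rintro _ _ (⟨h, hc⟩ | ⟨f, g, h⟩)
    · exact .inl ⟨_, _, _, _, rfl, rfl, h, hc, rfl, rfl⟩
    · refine .inr (congrArg El.of (pm_ext fun y => ?_))
      induction y using OnePoint.rec with
      | infty => exact g.based
      | coe y =>
        exact (congrArg (fun z => g.fn (.some z)) (Fin.cons_self_tail y).symm).trans
          (h (y 0) _ (ap_ci _) _)
  ht := by
    rintro _ _ ⟨_, _, u, v, rfl, rfl, h, hc, rfl, rfl⟩
    exact .htpy h hc
  st := fun | .of u => .stab u _ fun t h hh y =>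
          ac_congr X (fun s => (ap_ci t s).trans (hh s).symm) _

/-- the iterated suspension -/
def suk (u : Pm (Rn j) X n) : (k : ℕ) → Pm (Rn (j + k)) X (n + k)
  | 0 => u
  | k + 1 => su (suk u k)

theorem it_eq (u : Pm (Rn j) X n) (k : ℕ) : (sys X).σ^[k] (.of u) = .of (suk u k) := by
  induction k with
  | zero => rfl
  | succ k ih => rw [Function.iterate_succ_apply', ih]; rfl

theorem mk_suk (u : Pm (Rn j) X n) (k : ℕ) :
    Quot.mk (PiRel X) (.of (suk u k)) = Quot.mk _ (.of u) := by
  rw [← it_eq, (gen X).mk_it]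

theorem Ht.suk {u v : Pm (Rn j) X n} (h : Ht u v) (k : ℕ) : Ht (suk u k) (suk v k) := by
  induction k with
  | zero => exact h
  | succ k ih => exact ih.su

/-- the constant map -/
def cst (j : ℕ) (X : OSp) (n : ℕ) : Pm (Rn j) X n := ⟨fun _ => X.bp n, continuous_const, rfl⟩

theorem su_cst : su (cst j X n) = cst _ X _ := pm_ext fun y => by
  induction y using OnePoint.rec with
  | infty => rfl
  | coe y => exact X.ac_bp _ _ _

theorem suk_cst (k : ℕ) : suk (cst j X n) k = cst _ X _ := by
  induction k with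
  | zero => rfl
  | succ k ih => exact (congrArg su ih).trans su_cst

/-- the image under a morphism -/
def im (g : Mor X Y) (u : Pm (Rn j) X n) : Pm (Rn j) Y n :=
  ⟨fun y => g.app n (u.fn y), (g.ok n).1.comp u.cont,
    (congrArg (g.app n) u.based).trans (g.ok n).2.1⟩

theorem su_im (g : Mor X Y) (u : Pm (Rn j) X n) : su (im g u) = im g (su u) := pm_ext fun y => by
  induction y using OnePoint.rec with
  | infty => exact (g.ok _).2.1.symm
  | coe y => exact ((g.ok _).2.2 _ _ _).symm

theorem suk_im (g : Mor X Y) (u : Pm (Rn j) X n) (k : ℕ) : suk (im g u) k = im g (suk u k) := by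
  induction k with
  | zero => rfl
  | succ k ih => exact (congrArg su ih).trans (su_im g _)

/-- An element with null class is null homotopic after enough suspensions. -/
theorem ht_of_null {u : Pm (Rn j) X n} (h : P241GR.IsNull (Quot.mk (PiRel X) (.of u))) :
    ∃ k, ∀ l, Ht (suk (suk u k) l) (cst _ X _) := by
  obtain ⟨j', n', z, hz, e⟩ := h
  obtain rfl : z = cst j' X n' := pm_ext hz
  obtain ⟨a, b, h⟩ := ((gen X).eq _ _).1 e.symm
  rw [it_eq, it_eq, suk_cst] at h
  obtain ⟨j₁, n₁, v, w, h1, h2, h⟩ := h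
  refine ⟨a, fun l => ?_⟩
  generalize suk u a = u' at h1
  generalize j + a = J at *
  generalize n + a = N at *
  generalize j' + b = J' at *
  generalize n' + b = N' at *
  cases h1
  cases h2
  simpa only [suk_cst] using h.suk l

/-- the new coordinates come first -/
def es (n k : ℕ) : Fin k ⊕ Fin n ≃ Fin (n + k) := finSumFinEquiv.trans (finCongr (Nat.add_comm k n))

theorem es_inr (i : Fin n) : es n (k + 1) (.inr i) = (es n k (.inr i)).succ :=
  Fin.ext (by simp [es]; omega)

theorem es_zero : es n (k + 1) (.inl 0) = 0 := Fin.ext (by simp [es])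

theorem es_succ (i : Fin k) : es n (k + 1) (.inl i.succ) = (es n k (.inl i)).succ :=
  Fin.ext (by simp [es])

theorem suk_fn (u : Pm (Rn j) X n) (k : ℕ) (y : Fin (j + k) → ℝ) : ∃ h : Emb n (n + k),
    (∀ s i, ap h s (es n k (.inr i)) = s i) ∧
    (∀ s i, ap h s (es n k (.inl i)) = y (es j k (.inl i))) ∧
    (suk u k).fn (.some y) = X.ac h (u.fn (.some fun i => y (es j k (.inr i)))) := by
  induction k with
  | zero =>
    obtain ⟨q, hq⟩ := ex_id n
    have e : ∀ {n} (i : Fin n), es n 0 (.inr i) = i := fun i => Fin.ext (by simp [es])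
    exact ⟨q, fun s i => by rw [hq, e], fun _ i => i.elim0, by
      rw [X.ac_id _ q hq]; simp only [e]; rfl⟩
  | succ k ih =>
    obtain ⟨h, h1, h2, h3⟩ := ih fun i => y i.succ
    obtain ⟨q, hq⟩ := ex_comp h (ci (n + k) (y 0))
    refine ⟨q, fun s i => ?_, fun s i => ?_, ?_⟩
    · rw [hq, ap_ci, es_inr]
      exact h1 s i
    · rw [hq, ap_ci]
      induction i using Fin.cases with
      | zero => rw [es_zero, es_zero]; rfl
      | succ i => rw [es_succ, es_succ]; exact h2 s i
    · rw [X.ac_comp _ _ _ _ _ q hq]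
      simp only [es_inr]
      exact congrArg (X.ac _) h3

end Vale.Agent.P241GQ
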